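import Vale.Agent.Results.P230.OrderBoth
import Vale.Agent.Lib.P230.ExplicitLat

/-!
# P230: worst-case covering densities of convex bodies, explicit form

All convex bodies and all center sets live in `ℝⁿ = Fin n → ℝ`; `Q_R = Icc (-R) R`.  A full-rank
lattice is written as `A ℤⁿ` with an invertible real matrix `A`, its covolume is `|det A|`.

* `Θ_T(n)` is of exact order `n log n`: some body has all its translative covering densities at least
  `c n log n`, and every body has a translative covering of density at most `C n log n`.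
* `c n log n ≤ Θ_L(n) ≤ C n (log n)^10`.
* For every real `D` and all large `n` there is a convex body in `ℝⁿ` all of whose translative
  covering densities are larger than `D n`: the answer to the question of Naszódi is negative.
-/

namespace Vale.Agent.Results.P230.ExplicitOrder

open Filter MeasureTheory Set
open scoped ENNReal Pointwise

/-- A convex body in `ℝⁿ`: a compact convex set with nonempty interior. -/
def Body {n : ℕ} (K : Set (Fin n → ℝ)) : Prop :=
  Convex ℝ K ∧ IsCompact K ∧ (interior K).Nonempty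

/-- `X` is the set of centers of a covering by translates of `K`: every bounded set contains
finitely many points of `X`, and `K + X = ℝⁿ`. -/
def Covers {n : ℕ} (K X : Set (Fin n → ℝ)) : Prop :=
  (∀ S : Set (Fin n → ℝ), Bornology.IsBounded S → (X ∩ S).Finite) ∧ K + X = univ

/-- The density `vol(K) · limsup_{R → ∞} #(X ∩ [-R,R]ⁿ) / (2R)ⁿ` of the family `K + x`, `x ∈ X`. -/
noncomputable def density {n : ℕ} (K X : Set (Fin n → ℝ)) : ℝ≥0∞ :=
  volume K * limsup (fun R : ℝ => ((X ∩ Icc (fun _ => -R) (fun _ => R)).encard : ℝ≥0∞) /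
    ENNReal.ofReal ((2 * R) ^ n)) atTop

/-- The lattice `A ℤⁿ`. -/
def lattice {n : ℕ} (A : Matrix (Fin n) (Fin n) ℝ) : Set (Fin n → ℝ) :=
  range fun z : Fin n → ℤ => A.mulVec fun i => (z i : ℝ)

open Vale.Agent.P230 Vale.Agent.P230.Expl

theorem covers_iff {n : ℕ} (K X : Set (Fin n → ℝ)) :
    Covers K X ↔ LocFin (ce n ⁻¹' X) ∧ ce n ⁻¹' K + ce n ⁻¹' X = univ := by
  rw [locFin_pre, add_pre]
  rfl

theorem density_eq {n : ℕ} {K : Set (Fin n → ℝ)} (hK : IsCompact K) (X : Set (Fin n → ℝ)) :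
    volume (ce n ⁻¹' K) * upperDensity (ce n ⁻¹' X) = density K X := by
  rw [vol_pre hK, upper_pre]
  rfl

theorem lowT {n : ℕ} {a a' : ℝ} (h : ENNReal.ofReal a' ≤ ThetaT n) (ha : a < a') (h0 : 0 < a') :
    ∃ K : Set (Fin n → ℝ), Body K ∧ ∀ X, Covers K X → ENNReal.ofReal a ≤ density K X := by
  have h1 : ENNReal.ofReal a < ThetaT n := ((ENNReal.ofReal_lt_ofReal_iff h0).2 ha).trans_le h
  unfold ThetaT at h1
  obtain ⟨K', h2⟩ := lt_iSup_iff.1 h1
  obtain ⟨hK', h3⟩ := lt_iSup_iff.1 h2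
  refine ⟨(ce n).symm ⁻¹' K', body_pre_symm hK', fun X hX => ?_⟩
  obtain ⟨hX1, hX2⟩ := (covers_iff _ _).1 hX
  rw [symm_pre] at hX2
  rw [← density_eq (body_pre_symm hK').2.1, symm_pre]
  refine h3.le.trans ?_
  unfold thetaT
  exact iInf_le_of_le (ce n ⁻¹' X) (iInf_le_of_le hX1 (iInf_le_of_le hX2 le_rfl))

theorem upT {n : ℕ} {b b' : ℝ} (h : ThetaT n ≤ ENNReal.ofReal b') (hb : b' < b) (h0 : 0 < b)
    (K : Set (Fin n → ℝ)) (hK : Body K) :
    ∃ X, Covers K X ∧ density K X ≤ ENNReal.ofReal b := by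
  have h1 : thetaT (ce n ⁻¹' K) < ENNReal.ofReal b := by
    refine lt_of_le_of_lt ?_ ((ENNReal.ofReal_lt_ofReal_iff h0).2 hb)
    refine le_trans ?_ h
    unfold ThetaT
    exact le_iSup₂_of_le (ce n ⁻¹' K) (body_pre hK.1 hK.2.1 hK.2.2) le_rfl
  unfold thetaT at h1
  obtain ⟨X', h2⟩ := iInf_lt_iff.1 h1
  obtain ⟨hX1, h3⟩ := iInf_lt_iff.1 h2
  obtain ⟨hX2, h4⟩ := iInf_lt_iff.1 h3
  refine ⟨(ce n).symm ⁻¹' X', (covers_iff _ _).2 ?_, ?_⟩
  · rw [symm_pre]
    exact ⟨hX1, hX2⟩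
  · rw [← density_eq hK.2.1, symm_pre]
    exact h4.le

theorem lowL {n : ℕ} {a a' : ℝ} (h : ENNReal.ofReal a' ≤ ThetaL n) (ha : a < a') (h0 : 0 < a') :
    ∃ K : Set (Fin n → ℝ), Body K ∧ ∀ A : Matrix (Fin n) (Fin n) ℝ, A.det ≠ 0 →
      K + lattice A = univ → a ≤ volume.real K / |A.det| := by
  have h1 : ENNReal.ofReal a < ThetaL n := ((ENNReal.ofReal_lt_ofReal_iff h0).2 ha).trans_le h
  unfold ThetaL at h1
  obtain ⟨K', h2⟩ := lt_iSup_iff.1 h1
  obtain ⟨hK', h3⟩ := lt_iSup_iff.1 h2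
  refine ⟨(ce n).symm ⁻¹' K', body_pre_symm hK', fun A hA hcov => ?_⟩
  obtain ⟨L, hL1, hL2, hL3, hL4⟩ := matrix_to_lat hA
  have hc : K' + (L : Set (E n)) = univ := by
    rw [hL3]
    have h5 := (add_pre ((ce n).symm ⁻¹' K') (AZ A)).2 hcov
    rwa [symm_pre] at h5
  have h4 : ENNReal.ofReal a ≤ volume K' / ENNReal.ofReal |A.det| := by
    refine h3.le.trans ?_
    unfold thetaL
    rw [← hL4]
    exact iInf_le_of_le L (iInf_le_of_le hL1 (iInf_le_of_le hL2 (iInf_le_of_le hc le_rfl)))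
  have hpos : 0 < |A.det| := abs_pos.2 hA
  have hfin : volume K' / ENNReal.ofReal |A.det| ≠ ⊤ :=
    ENNReal.div_ne_top hK'.2.1.measure_lt_top.ne (by simpa using hA)
  have h5 := (ENNReal.ofReal_le_iff_le_toReal hfin).1 h4
  rw [ENNReal.toReal_div, ENNReal.toReal_ofReal hpos.le, ← vol_pre_symm hK'] at h5
  exact h5

theorem upL {n : ℕ} {b b' : ℝ} (h : ThetaL n ≤ ENNReal.ofReal b') (hb : b' < b) (h0 : 0 < b)
    (K : Set (Fin n → ℝ)) (hK : Body K) :
    ∃ A : Matrix (Fin n) (Fin n) ℝ, A.det ≠ 0 ∧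
      K + lattice A = univ ∧ volume.real K / |A.det| ≤ b := by
  have h1 : thetaL (ce n ⁻¹' K) < ENNReal.ofReal b := by
    refine lt_of_le_of_lt ?_ ((ENNReal.ofReal_lt_ofReal_iff h0).2 hb)
    refine le_trans ?_ h
    unfold ThetaL
    exact le_iSup₂_of_le (ce n ⁻¹' K) (body_pre hK.1 hK.2.1 hK.2.2) le_rfl
  unfold thetaL at h1
  obtain ⟨L, h2⟩ := iInf_lt_iff.1 h1
  obtain ⟨hL1, h3⟩ := iInf_lt_iff.1 h2
  obtain ⟨hL2, h4⟩ := iInf_lt_iff.1 h3
  obtain ⟨hL3, h5⟩ := iInf_lt_iff.1 h4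
  obtain ⟨A, hA, hA1, hA2⟩ := lat_to_matrix L
  refine ⟨A, hA, ?_, ?_⟩
  · rw [hA1] at hL3
    exact (add_pre K (AZ A)).1 hL3
  · rw [hA2, vol_pre hK.2.1] at h5
    have h6 := ENNReal.toReal_le_of_le_ofReal h0.le h5.le
    rw [ENNReal.toReal_div, ENNReal.toReal_ofReal (abs_nonneg _)] at h6
    exact h6

theorem result :
    (∃ c C : ℝ, 0 < c ∧ 0 < C ∧ ∀ᶠ n : ℕ in atTop,
      (∃ K : Set (Fin n → ℝ), Body K ∧ ∀ X, Covers K X →
        ENNReal.ofReal (c * n * Real.log n) ≤ density K X) ∧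
      (∀ K : Set (Fin n → ℝ), Body K → ∃ X, Covers K X ∧
        density K X ≤ ENNReal.ofReal (C * n * Real.log n)) ∧
      (∃ K : Set (Fin n → ℝ), Body K ∧ ∀ A : Matrix (Fin n) (Fin n) ℝ, A.det ≠ 0 →
        K + lattice A = univ → c * n * Real.log n ≤ volume.real K / |A.det|) ∧
      (∀ K : Set (Fin n → ℝ), Body K → ∃ A : Matrix (Fin n) (Fin n) ℝ, A.det ≠ 0 ∧
        K + lattice A = univ ∧ volume.real K / |A.det| ≤ C * n * Real.log n ^ 10)) ∧
    ∀ D : ℝ, ∀ᶠ n : ℕ in atTop, ∃ K : Set (Fin n → ℝ), Body K ∧ ∀ X, Covers K X →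
      ENNReal.ofReal (D * n) < density K X := by
  obtain ⟨⟨c, C, hc, hC, hev⟩, -⟩ := Vale.Agent.Results.P230.OrderBoth.result
  have hlog : Tendsto (fun n : ℕ => Real.log (n : ℝ)) atTop atTop :=
    Real.tendsto_log_atTop.comp tendsto_natCast_atTop_atTop
  refine ⟨⟨c / 2, C + 1, by positivity, by positivity, ?_⟩, fun D => ?_⟩
  · filter_upwards [hev, eventually_ge_atTop 2] with n ⟨h1, h2, h3, h4⟩ hn
    have hn1 : (1 : ℝ) < n := by exact_mod_cast hn
    have hn0 : (0 : ℝ) < n := by linarith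
    have hl : 0 < Real.log n := Real.log_pos hn1
    have hnl : 0 < n * Real.log n := mul_pos hn0 hl
    have hnl10 : 0 < n * Real.log n ^ 10 := mul_pos hn0 (pow_pos hl 10)
    have e1 : c / 2 * n * Real.log n < c * n * Real.log n := by nlinarith
    have e2 : C * n * Real.log n < (C + 1) * n * Real.log n := by nlinarith
    have e3 : C * n * Real.log n ^ 10 < (C + 1) * n * Real.log n ^ 10 := by nlinarith
    have p1 : 0 < c * n * Real.log n := by positivity
    have p2 : 0 < (C + 1) * n * Real.log n := by positivity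
    have p3 : 0 < (C + 1) * n * Real.log n ^ 10 := by positivity
    exact ⟨lowT h1 e1 p1, fun K hK => upT h2 e2 p2 K hK, lowL h3 e1 p1,
      fun K hK => upL h4 e3 p3 K hK⟩
  · filter_upwards [hev, eventually_ge_atTop 2, hlog.eventually_gt_atTop (2 * D / c)]
      with n ⟨h1, _, _, _⟩ hn hD
    have hn1 : (1 : ℝ) < n := by exact_mod_cast hn
    have hn0 : (0 : ℝ) < n := by linarith
    have hl : 0 < Real.log n := Real.log_pos hn1
    have hnl : 0 < n * Real.log n := mul_pos hn0 hl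
    have e1 : c / 2 * n * Real.log n < c * n * Real.log n := by nlinarith
    have p1 : 0 < c * n * Real.log n := by positivity
    have p0 : 0 < c / 2 * n * Real.log n := by positivity
    have e0 : D * n < c / 2 * n * Real.log n := by
      rw [div_lt_iff₀ hc] at hD
      nlinarith
    obtain ⟨K, hK, h5⟩ := lowT h1 e1 p1
    exact ⟨K, hK, fun X hX =>
      ((ENNReal.ofReal_lt_ofReal_iff p0).2 e0).trans_le (h5 X hX)⟩

end Vale.Agent.Results.P230.ExplicitOrder
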