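import Vale.Agent.Results.P230.OrderNLogN
import Vale.Agent.Lib.P230L.FinalL

/-!
# P230: the worst-case covering densities of convex bodies

`Θ_T(n)` is of exact order `n log n`, and `Θ_L(n)` is of order `n log n` up to a power of `log n`:
there are absolute constants `c, C > 0` with `c n log n ≤ Θ_T(n) ≤ C n log n` and
`c n log n ≤ Θ_L(n) ≤ C n (log n)^10` for all large `n`.  In particular there is no absolute
constant `C` with `θ_T(K) ≤ C n` for all convex bodies `K` in all dimensions `n`.

The upper bound for `Θ_L` improves the bound `C n²`.  The lattice is a layered random linear code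
over a prime field: a random code of dimension about `n` leaves a point uncovered with probability
at most `exp(-c n / log n)` at density `n` (few linear relations between the integer points of a
convex body, by a strict Young inequality), and about `2 log₂ log n` extra dimensions are used as
layer directions; each of them squares the uncovered fraction at the cost of a constant factor.
-/

namespace Vale.Agent.Results.P230.OrderBoth

open Filter MeasureTheory
open Vale.Agent.P230

/-- **Main theorem.** -/
theorem result :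
    (∃ c C : ℝ, 0 < c ∧ 0 < C ∧ ∀ᶠ n : ℕ in atTop,
      ENNReal.ofReal (c * n * Real.log n) ≤ ThetaT n ∧
      ThetaT n ≤ ENNReal.ofReal (C * n * Real.log n) ∧
      ENNReal.ofReal (c * n * Real.log n) ≤ ThetaL n ∧
      ThetaL n ≤ ENNReal.ofReal (C * n * (Real.log n) ^ 10)) ∧
    ¬ ∃ C : ℝ, ∀ (n : ℕ) (K : Set (E n)), IsConvexBody K → thetaT K ≤ ENNReal.ofReal (C * n) := by
  obtain ⟨⟨c, C₁, hc, hC₁, hev₁⟩, hneg⟩ := Vale.Agent.Results.P230.OrderNLogN.result
  obtain ⟨C₂, hC₂, hev₂⟩ := thetaL_upper
  refine ⟨⟨c, max C₁ C₂, hc, lt_max_of_lt_left hC₁, ?_⟩, hneg⟩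
  filter_upwards [hev₁, hev₂, eventually_ge_atTop 1] with n h₁ h₂ hn
  have hn0 : (0 : ℝ) ≤ n := Nat.cast_nonneg n
  have hlog : 0 ≤ Real.log (n : ℝ) := Real.log_nonneg (by exact_mod_cast hn)
  refine ⟨h₁.1, h₁.2.1.trans (ENNReal.ofReal_le_ofReal ?_), h₁.2.2, ?_⟩
  · have := le_max_left C₁ C₂
    gcongr
  · refine (iSup₂_le fun K hK => h₂ K hK).trans (ENNReal.ofReal_le_ofReal ?_)
    have := le_max_right C₁ C₂
    gcongr

end Vale.Agent.Results.P230.OrderBoth
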