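import Vale.Agent.Lib.P230.Main
import Vale.Agent.Lib.P230.Rogers
import Vale.Agent.Lib.P230.Num
import Vale.Agent.Lib.P230.LatticeCov

/-!
# P230: the worst-case translative covering density of convex bodies is of order `n log n`

`Θ_T(n)` is of exact order `n log n`: there are absolute constants `c, C > 0` with
`c n log n ≤ Θ_T(n) ≤ C n log n` for all large `n`.  In particular there is no absolute constant
`C` with `θ_T(K) ≤ C n` for all convex bodies `K` in all dimensions `n` (negative answer to the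
question of Naszódi), and `Θ_L(n) ≥ c n log n`.
-/

namespace Vale.Agent.Results.P230.OrderNLogN

open Filter MeasureTheory
open Vale.Agent.P230

/-- **Main theorem.** -/
theorem result :
    (∃ c C : ℝ, 0 < c ∧ 0 < C ∧ ∀ᶠ n : ℕ in atTop,
      ENNReal.ofReal (c * n * Real.log n) ≤ ThetaT n ∧
      ThetaT n ≤ ENNReal.ofReal (C * n * Real.log n) ∧
      ENNReal.ofReal (c * n * Real.log n) ≤ ThetaL n) ∧
    ¬ ∃ C : ℝ, ∀ (n : ℕ) (K : Set (E n)), IsConvexBody K → thetaT K ≤ ENNReal.ofReal (C * n) := by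
  obtain ⟨C, hC, hrog⟩ := rogers
  have hnum := Par.num
  have hlow : ∀ n : ℕ, Par.NumOK n → ∃ K : Set (E n), IsConvexBody K ∧
      ENNReal.ofReal ((Real.exp (-14) * Par.c₀) * n * Real.log n) ≤ thetaT K := by
    intro n hn
    obtain ⟨K, hK, hle⟩ := exists_body n hn
    refine ⟨K, hK, ?_⟩
    have : (Real.exp (-14) * Par.c₀) * n * Real.log n = Real.exp (-14) * Par.D n := by
      unfold Par.D; ring
    rw [this]
    exact hle
  have hc0 : 0 < Par.c₀ := by unfold Par.c₀; norm_num
  have hc : 0 < Real.exp (-14) * Par.c₀ := mul_pos (Real.exp_pos _) hc0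
  refine ⟨⟨Real.exp (-14) * Par.c₀, C, hc, hC, ?_⟩, ?_⟩
  · filter_upwards [hnum, eventually_ge_atTop 2] with n hn hn2
    obtain ⟨K, hK, hle⟩ := hlow n hn
    have h1 : ENNReal.ofReal ((Real.exp (-14) * Par.c₀) * n * Real.log n) ≤ ThetaT n :=
      hle.trans (le_iSup₂_of_le K hK le_rfl)
    refine ⟨h1, ?_, h1.trans (ThetaT_le_ThetaL (by omega))⟩
    exact iSup₂_le fun K hK => hrog n hn2 K hK
  · rintro ⟨C', hC'⟩
    -- choose n with c log n > C'
    have hlog : Tendsto (fun n : ℕ => Real.log (n : ℝ)) atTop atTop :=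
      Real.tendsto_log_atTop.comp tendsto_natCast_atTop_atTop
    have hev : ∀ᶠ n : ℕ in atTop, (|C'| + 1) / (Real.exp (-14) * Par.c₀) < Real.log n :=
      hlog.eventually_gt_atTop _
    obtain ⟨n, hn, hn1, hn2⟩ := (hnum.and (hev.and (eventually_ge_atTop 1))).exists
    obtain ⟨K, hK, hle⟩ := hlow n hn
    have h1 := hle.trans (hC' n K hK)
    have hn0 : (0 : ℝ) < n := by exact_mod_cast hn2
    rw [div_lt_iff₀ hc] at hn1
    have h2 : C' * n < (Real.exp (-14) * Par.c₀) * n * Real.log n := by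
      have h3 : C' ≤ |C'| := le_abs_self _
      nlinarith
    have hpos : 0 < (Real.exp (-14) * Par.c₀) * n * Real.log n := by
      have h3 : 0 ≤ |C'| := abs_nonneg _
      nlinarith
    have h4 := (ENNReal.ofReal_lt_ofReal_iff hpos).mpr h2
    exact absurd h1 (not_le.mpr h4)

end Vale.Agent.Results.P230.OrderNLogN
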